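import Mathlib.Analysis.SpecialFunctions.SmoothTransition
import Mathlib.Analysis.Calculus.ContDiff.Operations
import Mathlib.Tactic

/-! Smooth steps and smooth 1-periodic extensions of functions supported in `[1/3, 2/3]`. -/

open Set Filter
open scoped ContDiff Topology

namespace Vale.Agent.P265.H766

/-- A smooth monotone step: `0` for `t ≤ 1/3`, `1` for `t ≥ 2/3`. -/
noncomputable def step (t : ℝ) : ℝ := Real.smoothTransition (3 * t - 1)

theorem step_contDiff : ContDiff ℝ ∞ step :=
  Real.smoothTransition.contDiff.comp (by fun_prop)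

theorem step_zero {t : ℝ} (h : t ≤ 1 / 3) : step t = 0 :=
  Real.smoothTransition.zero_of_nonpos (by linarith)

theorem step_one {t : ℝ} (h : 2 / 3 ≤ t) : step t = 1 :=
  Real.smoothTransition.one_of_one_le (by linarith)

theorem step_mem (t : ℝ) : step t ∈ Icc (0 : ℝ) 1 :=
  ⟨Real.smoothTransition.nonneg _, Real.smoothTransition.le_one _⟩

theorem step_deriv_zero {t : ℝ} (h : t ∉ Icc (1 / 3 : ℝ) (2 / 3)) : deriv step t = 0 := by
  rw [mem_Icc, not_and_or, not_le, not_le] at h
  rcases h with h | h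
  · have : step =ᶠ[𝓝 t] fun _ => (0 : ℝ) := by
      filter_upwards [Iio_mem_nhds h] with s hs
      exact step_zero (le_of_lt hs)
    rw [this.deriv_eq, deriv_const]
  · have : step =ᶠ[𝓝 t] fun _ => (1 : ℝ) := by
      filter_upwards [Ioi_mem_nhds h] with s hs
      exact step_one (le_of_lt hs)
    rw [this.deriv_eq, deriv_const]

theorem step_hasDerivAt (t : ℝ) : HasDerivAt step (deriv step t) t :=
  ((step_contDiff.differentiable (by simp)) t).hasDerivAt

section Periodize

/-- The 1-periodic extension of `f` restricted to `[0,1)`. -/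
noncomputable def per {E F : Type*} (f : ℝ × E → F) : ℝ × E → F :=
  fun p => f (Int.fract p.1, p.2)

theorem per_periodic {E F : Type*} (f : ℝ × E → F) (t : ℝ) (x : E) : per f (t + 1, x) = per f (t, x) := by
  simp [per]

theorem per_eq {E F : Type*} [Zero F] {f : ℝ × E → F} (hf : ∀ t x, t ∉ Icc (1 / 3 : ℝ) (2 / 3) → f (t, x) = 0) {t : ℝ}
    (ht : t ∈ Icc (0 : ℝ) 1) (x : E) : per f (t, x) = f (t, x) := by
  rcases eq_or_lt_of_le ht.2 with h | h
  · subst h
    simp only [per, Int.fract_one]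
    rw [hf 0 x (by norm_num), hf 1 x (by norm_num)]
  · simp only [per]
    rw [Int.fract_eq_self.2 ⟨ht.1, h⟩]

variable {E F : Type*} [NormedAddCommGroup E] [NormedSpace ℝ E] [NormedAddCommGroup F]
  [NormedSpace ℝ F]

theorem per_contDiffAt {f : ℝ × E → F}
    (hf : ∀ t x, t ∉ Icc (1 / 3 : ℝ) (2 / 3) → f (t, x) = 0) {n : WithTop ℕ∞} {p : ℝ × E}
    (h : Int.fract p.1 ∈ Icc (1 / 3 : ℝ) (2 / 3) → ContDiffAt ℝ n f (Int.fract p.1, p.2)) :
    ContDiffAt ℝ n (per f) p := by
  obtain ⟨t, x⟩ := p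
  simp only at h ⊢
  by_cases hfr : Int.fract t ∈ Icc (1 / 3 : ℝ) (2 / 3)
  · -- near `t` the fractional part is `t - ⌊t⌋`
    have hev : ∀ᶠ q : ℝ × E in 𝓝 (t, x), Int.fract q.1 = q.1 - ⌊t⌋ := by
      have h1 : ((⌊t⌋ : ℝ)) < t := by
        have := Int.floor_add_fract t
        have := hfr.1
        linarith
      have h2 : t < (⌊t⌋ : ℝ) + 1 := by
        have := Int.floor_add_fract t
        have := hfr.2
        linarith
      have h3 : Ioo (⌊t⌋ : ℝ) (⌊t⌋ + 1) ∈ 𝓝 t := Ioo_mem_nhds h1 h2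
      have h4 : Prod.fst ⁻¹' Ioo (⌊t⌋ : ℝ) (⌊t⌋ + 1) ∈ 𝓝 (t, x) :=
        continuous_fst.continuousAt h3
      filter_upwards [h4] with q hq
      have : ⌊q.1⌋ = ⌊t⌋ := Int.floor_eq_iff.2 ⟨hq.1.le, hq.2⟩
      rw [Int.fract, this]
    have hev' : per f =ᶠ[𝓝 (t, x)] fun q => f (q.1 - ⌊t⌋, q.2) := by
      filter_upwards [hev] with q hq
      simp only [per, hq]
    refine ContDiffAt.congr_of_eventuallyEq ?_ hev'
    have h5 : ContDiffAt ℝ n f ((fun q : ℝ × E => ((q.1 - (⌊t⌋ : ℝ), q.2) : ℝ × E)) (t, x)) := by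
      exact h hfr
    exact h5.comp (t, x) (by fun_prop)
  · -- near `t` the function vanishes
    have hev : ∀ᶠ q : ℝ × E in 𝓝 (t, x), Int.fract q.1 ∉ Icc (1 / 3 : ℝ) (2 / 3) := by
      have hkey : ∀ᶠ s in 𝓝 t, Int.fract s ∉ Icc (1 / 3 : ℝ) (2 / 3) := by
        rw [mem_Icc, not_and_or, not_le, not_le] at hfr
        have hfl := Int.floor_add_fract t
        rcases hfr with hlt | hlt
        · have h3 : Ioo ((⌊t⌋ : ℝ) - 1 / 3) (⌊t⌋ + 1 / 3) ∈ 𝓝 t :=
            Ioo_mem_nhds (by have := Int.fract_nonneg t; linarith) (by linarith)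
          filter_upwards [h3] with s hs hmem
          rcases le_or_gt (⌊t⌋ : ℝ) s with hle | hgt
          · have : ⌊s⌋ = ⌊t⌋ := Int.floor_eq_iff.2 ⟨hle, by linarith [hs.2]⟩
            have h6 := hmem.1
            rw [Int.fract, this] at h6
            linarith [hs.2]
          · have : ⌊s⌋ = ⌊t⌋ - 1 := Int.floor_eq_iff.2
              ⟨by push_cast; linarith [hs.1], by push_cast; linarith⟩
            have h6 := hmem.2
            rw [Int.fract, this] at h6
            push_cast at h6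
            linarith [hs.1]
        · have h3 : Ioo ((⌊t⌋ : ℝ) + 2 / 3) (⌊t⌋ + 4 / 3) ∈ 𝓝 t :=
            Ioo_mem_nhds (by linarith) (by have := Int.fract_lt_one t; linarith)
          filter_upwards [h3] with s hs hmem
          rcases lt_or_ge s ((⌊t⌋ : ℝ) + 1) with hlt' | hge
          · have : ⌊s⌋ = ⌊t⌋ := Int.floor_eq_iff.2 ⟨by linarith [hs.1], hlt'⟩
            have h6 := hmem.2
            rw [Int.fract, this] at h6
            linarith [hs.1]
          · have : ⌊s⌋ = ⌊t⌋ + 1 := Int.floor_eq_iff.2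
              ⟨by push_cast; linarith, by push_cast; linarith [hs.2]⟩
            have h6 := hmem.1
            rw [Int.fract, this] at h6
            push_cast at h6
            linarith [hs.2]
      exact (continuous_fst.tendsto (t, x)).eventually hkey
    have hev' : per f =ᶠ[𝓝 (t, x)] fun _ => (0 : F) := by
      filter_upwards [hev] with q hq
      exact hf _ _ hq
    exact contDiffAt_const.congr_of_eventuallyEq hev'

end Periodize

end Vale.Agent.P265.H766
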