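import Mathlib.Analysis.Quaternion
import Mathlib.Analysis.InnerProductSpace.Calculus
import Mathlib.Analysis.Calculus.FDeriv.Mul
import Mathlib.Analysis.Calculus.FDeriv.Symmetric
import Vale.Agent.P265.H766.Step

/-! Calculus of a smooth family `Q : ℝ × A → ℍ` of quaternions, at points where it is not zero:
the logarithmic derivative `bet`, the rotation `rot`, the action form `lam`. -/

open Set Filter Quaternion
open scoped ContDiff Topology InnerProductSpace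

namespace Vale.Agent.P265.H766

variable {A : Type*} [NormedAddCommGroup A] [NormedSpace ℝ A]

theorem contDiffAt_qinv {n : WithTop ℕ∞} {x : ℍ[ℝ]} (hx : x ≠ 0) :
    ContDiffAt ℝ n (fun y : ℍ[ℝ] => y⁻¹) x := by
  have := contDiffAt_ringInverse ℝ (n := n) (Units.mk0 x hx)
  rw [Ring.inverse_eq_inv'] at this
  exact this

/-- The logarithmic time derivative `(∂ₜ Q) Q⁻¹`. -/
noncomputable def bet (Q : ℝ × A → ℍ[ℝ]) (p : ℝ × A) : ℍ[ℝ] := fderiv ℝ Q p (1, 0) * (Q p)⁻¹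

/-- The vector `v` rotated by `Q_t Q_0⁻¹`. -/
noncomputable def rot (Q : ℝ × A → ℍ[ℝ]) (t : ℝ) (x : A × ℍ[ℝ]) : ℍ[ℝ] :=
  Q (t, x.1) * ((Q (0, x.1))⁻¹ * x.2 * Q (0, x.1)) * (Q (t, x.1))⁻¹

/-- The covector `b ↦ 2 ⟪Q_t⁻¹ ∂_b Q_t, Q_0⁻¹ v Q_0⟫`. -/
noncomputable def lam (Q : ℝ × A → ℍ[ℝ]) (t : ℝ) (x : A × ℍ[ℝ]) : A →L[ℝ] ℝ :=
  ((2 : ℝ) • innerSL ℝ ((Q (0, x.1))⁻¹ * x.2 * Q (0, x.1))) ∘L
    (ContinuousLinearMap.mul ℝ ℍ[ℝ] (Q (t, x.1))⁻¹) ∘L (fderiv ℝ Q (t, x.1)) ∘L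
      (ContinuousLinearMap.inr ℝ ℝ A)

/-- The Hamiltonian `2 ⟪(∂ₜ Q) Q⁻¹, v⟫`. -/
noncomputable def ham (Q : ℝ × A → ℍ[ℝ]) (p : ℝ × (A × ℍ[ℝ])) : ℝ :=
  2 * ⟪bet Q (p.1, p.2.1), p.2.2⟫_ℝ

/-- The differential of `ham` in the direction of `A`. -/
noncomputable def dham (Q : ℝ × A → ℍ[ℝ]) (p : ℝ × (A × ℍ[ℝ])) : A →L[ℝ] ℝ :=
  ((2 : ℝ) • innerSL ℝ p.2.2) ∘L (fderiv ℝ (bet Q) (p.1, p.2.1)) ∘L
    (ContinuousLinearMap.inr ℝ ℝ A)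

/-- The velocity of the rotation. -/
noncomputable def vel (Q : ℝ × A → ℍ[ℝ]) (p : ℝ × (A × ℍ[ℝ])) : ℍ[ℝ] :=
  bet Q (p.1, p.2.1) * p.2.2 - p.2.2 * bet Q (p.1, p.2.1)

theorem lam_apply (Q : ℝ × A → ℍ[ℝ]) (t : ℝ) (x : A × ℍ[ℝ]) (b : A) :
    lam Q t x b = 2 * ⟪(Q (t, x.1))⁻¹ * fderiv ℝ Q (t, x.1) (0, b),
      (Q (0, x.1))⁻¹ * x.2 * Q (0, x.1)⟫_ℝ := by
  simp [lam, real_inner_comm]

theorem dham_apply (Q : ℝ × A → ℍ[ℝ]) (p : ℝ × (A × ℍ[ℝ])) (b : A) :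
    dham Q p b = 2 * ⟪fderiv ℝ (bet Q) (p.1, p.2.1) (0, b), p.2.2⟫_ℝ := by
  simp [dham, real_inner_comm]

/-! ### Smoothness -/

section Smooth

variable {Q : ℝ × A → ℍ[ℝ]} {p : ℝ × A}

theorem contDiffAt_bet (hQ : ContDiff ℝ ∞ Q) (h : Q p ≠ 0) : ContDiffAt ℝ ∞ (bet Q) p := by
  have h1 : ContDiffAt ℝ ∞ (fun p => fderiv ℝ Q p ((1, 0) : ℝ × A)) p := by
    have := (hQ.fderiv_right (m := ∞) (by simp)).contDiffAt (x := p)
    exact this.clm_apply contDiffAt_const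
  have h2 : ContDiffAt ℝ ∞ (fun p => (Q p)⁻¹) p :=
    (contDiffAt_qinv h).comp p hQ.contDiffAt
  exact h1.mul h2

theorem contDiffAt_bet_comp (hQ : ContDiff ℝ ∞ Q) {q : ℝ × (A × ℍ[ℝ])}
    (h : Q (q.1, q.2.1) ≠ 0) :
    ContDiffAt ℝ ∞ (fun q : ℝ × (A × ℍ[ℝ]) => bet Q (q.1, q.2.1)) q := by
  exact ContDiffAt.comp (g := bet Q) (f := fun q : ℝ × (A × ℍ[ℝ]) => (q.1, q.2.1)) q
    (contDiffAt_bet hQ h) (by fun_prop)

theorem contDiffAt_ham (hQ : ContDiff ℝ ∞ Q) {q : ℝ × (A × ℍ[ℝ])}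
    (h : Q (q.1, q.2.1) ≠ 0) : ContDiffAt ℝ ∞ (ham Q) q :=
  contDiffAt_const.mul ((contDiffAt_bet_comp hQ h).inner ℝ (by fun_prop))

theorem contDiffAt_vel (hQ : ContDiff ℝ ∞ Q) {q : ℝ × (A × ℍ[ℝ])}
    (h : Q (q.1, q.2.1) ≠ 0) : ContDiffAt ℝ ∞ (vel Q) q := by
  have h1 := contDiffAt_bet_comp hQ h
  have h2 : ContDiffAt ℝ ∞ (fun q : ℝ × (A × ℍ[ℝ]) => q.2.2) q := by fun_prop
  exact (h1.mul h2).sub (h2.mul h1)

theorem contDiffAt_dham (hQ : ContDiff ℝ ∞ Q) {q : ℝ × (A × ℍ[ℝ])}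
    (h : Q (q.1, q.2.1) ≠ 0) : ContDiffAt ℝ ∞ (dham Q) q := by
  have h2 : ContDiffAt ℝ ∞ (fun q : ℝ × (A × ℍ[ℝ]) => fderiv ℝ (bet Q) (q.1, q.2.1)) q :=
    ContDiffAt.comp (g := fderiv ℝ (bet Q)) (f := fun q : ℝ × (A × ℍ[ℝ]) => (q.1, q.2.1)) q
      ((contDiffAt_bet hQ h).fderiv_right (m := ∞) (by simp)) (by fun_prop)
  have h3 : ContDiffAt ℝ ∞ (fun q : ℝ × (A × ℍ[ℝ]) => (2 : ℝ) • innerSL ℝ q.2.2) q := by
    have : ContDiff ℝ ∞ (fun v : ℍ[ℝ] => (2 : ℝ) • innerSL ℝ v) :=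
      ((2 : ℝ) • (innerSL ℝ : ℍ[ℝ] →L⋆[ℝ] ℍ[ℝ] →L[ℝ] ℝ)).contDiff
    exact this.contDiffAt.comp q (by fun_prop)
  exact h3.clm_comp (h2.clm_comp contDiffAt_const)

end Smooth

/-! ### Derivatives -/

section Deriv

variable {Q : ℝ × A → ℍ[ℝ]}

theorem hasDerivAt_time (hQ : ContDiff ℝ ∞ Q) (t : ℝ) (w : A) :
    HasDerivAt (fun s => Q (s, w)) (fderiv ℝ Q (t, w) (1, 0)) t := by
  have h1 : HasFDerivAt Q (fderiv ℝ Q (t, w)) ((fun s : ℝ => (s, w)) t) :=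
    ((hQ.differentiable (by simp)) (t, w)).hasFDerivAt
  have h2 : HasDerivAt (fun s : ℝ => (s, w)) ((1, 0) : ℝ × A) t :=
    (hasDerivAt_id t).prodMk (hasDerivAt_const t w)
  exact h1.comp_hasDerivAt t h2

theorem hasDerivAt_inv_time (hQ : ContDiff ℝ ∞ Q) {t : ℝ} {w : A} (h : Q (t, w) ≠ 0) :
    HasDerivAt (fun s => (Q (s, w))⁻¹) (-((Q (t, w))⁻¹ * bet Q (t, w))) t := by
  have h1 := HasFDerivAt.comp_hasDerivAt t (f := fun s => Q (s, w))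
    (hasFDerivAt_inv' (𝕜 := ℝ) h) (hasDerivAt_time hQ t w)
  refine h1.congr_deriv ?_
  simp [bet, mul_assoc]

theorem hasDerivAt_rot (hQ : ContDiff ℝ ∞ Q) {t : ℝ} {x : A × ℍ[ℝ]} (h : Q (t, x.1) ≠ 0) :
    HasDerivAt (fun s => rot Q s x) (vel Q (t, (x.1, rot Q t x))) t := by
  have h1 := ((hasDerivAt_time hQ t x.1).mul_const
    ((Q (0, x.1))⁻¹ * x.2 * Q (0, x.1))).mul (hasDerivAt_inv_time hQ h)
  refine h1.congr_deriv ?_
  simp only [vel, rot, bet]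
  set q := Q (t, x.1)
  set d := fderiv ℝ Q (t, x.1) (1, 0)
  set u := (Q (0, x.1))⁻¹ * x.2 * Q (0, x.1)
  have h2 : d * q⁻¹ * (q * u * q⁻¹) = d * u * q⁻¹ := by
    calc d * q⁻¹ * (q * u * q⁻¹) = d * (q⁻¹ * q) * u * q⁻¹ := by simp only [mul_assoc]
      _ = d * u * q⁻¹ := by rw [inv_mul_cancel₀ h, mul_one]
  rw [h2]
  simp only [mul_assoc, mul_neg]
  rfl

theorem hasDerivAt_fderiv_time (hQ : ContDiff ℝ ∞ Q) (t : ℝ) (w : A) :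
    HasDerivAt (fun s => fderiv ℝ Q (s, w)) (fderiv ℝ (fderiv ℝ Q) (t, w) (1, 0)) t := by
  have h0 : ContDiff ℝ ∞ (fderiv ℝ Q) := hQ.fderiv_right (m := ∞) (by simp)
  have h1 : HasFDerivAt (fderiv ℝ Q) (fderiv ℝ (fderiv ℝ Q) (t, w)) (t, w) :=
    ((h0.differentiable (by simp)) (t, w)).hasFDerivAt
  have h2 : HasDerivAt (fun s : ℝ => (s, w)) ((1, 0) : ℝ × A) t :=
    (hasDerivAt_id t).prodMk (hasDerivAt_const t w)
  exact HasFDerivAt.comp_hasDerivAt (l := fderiv ℝ Q) (l' := fderiv ℝ (fderiv ℝ Q) (t, w)) t h1 h2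

theorem symm_second (hQ : ContDiff ℝ ∞ Q) (p u v : ℝ × A) :
    fderiv ℝ (fderiv ℝ Q) p u v = fderiv ℝ (fderiv ℝ Q) p v u := by
  have h : IsSymmSndFDerivAt ℝ Q p :=
    (hQ.contDiffAt (x := p)).isSymmSndFDerivAt (n := ∞) (by
      simp only [minSmoothness_of_isRCLikeNormedField]
      have h2 : ((2 : ℕ∞) : WithTop ℕ∞) ≤ ((⊤ : ℕ∞) : WithTop ℕ∞) := WithTop.coe_le_coe.2 le_top
      exact h2)
  exact h u v

/-- `∂_b (bet) Q = ∂_b ∂_t Q - bet ∂_b Q`. -/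
theorem fderiv_bet_mul (hQ : ContDiff ℝ ∞ Q) {p : ℝ × A} (h : Q p ≠ 0) (v : ℝ × A) :
    fderiv ℝ (bet Q) p v * Q p =
      fderiv ℝ (fderiv ℝ Q) p v (1, 0) - bet Q p * fderiv ℝ Q p v := by
  have h0 : ContDiff ℝ ∞ (fderiv ℝ Q) := hQ.fderiv_right (m := ∞) (by simp)
  have hb : HasFDerivAt (bet Q) (fderiv ℝ (bet Q) p) p :=
    ((contDiffAt_bet hQ h).differentiableAt (by simp)).hasFDerivAt
  have hq : HasFDerivAt Q (fderiv ℝ Q p) p := ((hQ.differentiable (by simp)) p).hasFDerivAt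
  have hd : HasFDerivAt (fun p => fderiv ℝ Q p ((1, 0) : ℝ × A))
      ((fderiv ℝ (fderiv ℝ Q) p).flip (1, 0)) p := by
    have h1 : HasFDerivAt (fderiv ℝ Q) (fderiv ℝ (fderiv ℝ Q) p) p :=
      ((h0.differentiable (by simp)) p).hasFDerivAt
    have h2 := h1.clm_apply (hasFDerivAt_const ((1, 0) : ℝ × A) p)
    refine h2.congr_fderiv ?_
    ext v <;> simp
  have hev : (fun p => bet Q p * Q p) =ᶠ[𝓝 p] fun p => fderiv ℝ Q p ((1, 0) : ℝ × A) := by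
    have hne : ∀ᶠ r in 𝓝 p, Q r ≠ 0 := hQ.continuous.continuousAt.eventually_ne h
    filter_upwards [hne] with r hr
    simp only [bet, mul_assoc, inv_mul_cancel₀ hr, mul_one]
  have h3 := (hb.mul' hq).congr_of_eventuallyEq hev.symm
  have h4 := congrArg (fun L : (ℝ × A) →L[ℝ] ℍ[ℝ] => L v) (h3.unique hd)
  simp at h4
  rw [← h4]
  abel

theorem inner_conj (q a u : ℍ[ℝ]) :
    ⟪q⁻¹ * a * q, u⟫_ℝ = ⟪a, q * u * q⁻¹⟫_ℝ := by
  have h1 : q⁻¹ = (normSq q)⁻¹ • star q := rfl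
  have hre : ∀ x y : ℍ[ℝ], (x * y).re = (y * x).re := by
    intro x y
    simp only [Quaternion.re_mul]
    ring
  rw [inner_def, inner_def, h1]
  have h2 : star (q * u * ((normSq q)⁻¹ • star q)) = (normSq q)⁻¹ • (q * (star u * star q)) := by
    rw [star_mul, Quaternion.star_smul, star_star, star_mul, smul_mul_assoc]
  rw [h2]
  simp only [smul_mul_assoc, mul_smul_comm, Quaternion.re_smul]
  congr 1
  calc (star q * a * q * star u).re = (star q * (a * q * star u)).re := by simp only [mul_assoc]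
    _ = ((a * q * star u) * star q).re := hre _ _
    _ = (a * (q * (star u * star q))).re := by simp only [mul_assoc]

theorem hasDerivAt_lam (hQ : ContDiff ℝ ∞ Q) {t : ℝ} {x : A × ℍ[ℝ]} (h : Q (t, x.1) ≠ 0) :
    HasDerivAt (fun s => lam Q s x) (dham Q (t, (x.1, rot Q t x))) t := by
  have h1 : HasDerivAt (fun s => ContinuousLinearMap.mul ℝ ℍ[ℝ] (Q (s, x.1))⁻¹)
      (ContinuousLinearMap.mul ℝ ℍ[ℝ] (-((Q (t, x.1))⁻¹ * bet Q (t, x.1)))) t :=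
    HasFDerivAt.comp_hasDerivAt t (ContinuousLinearMap.mul ℝ ℍ[ℝ]).hasFDerivAt
      (hasDerivAt_inv_time hQ h)
  have h2 := hasDerivAt_fderiv_time hQ t x.1
  simp only [lam, rot]
  set u := (Q (0, x.1))⁻¹ * x.2 * Q (0, x.1) with hu
  have h3 := (hasDerivAt_const t ((2 : ℝ) • innerSL ℝ u)).clm_comp
    (h1.clm_comp (h2.clm_comp (hasDerivAt_const t (ContinuousLinearMap.inr ℝ ℝ A))))
  refine h3.congr_deriv ?_
  ext b
  have hkey := fderiv_bet_mul hQ h (0, b)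
  rw [symm_second hQ (t, x.1) (0, b) (1, 0)] at hkey
  rw [dham_apply]
  simp only
  rw [← inner_conj, mul_assoc, hkey, real_inner_comm]
  simp only [add_apply, ContinuousLinearMap.comp_apply,
    zero_apply, smul_apply, ContinuousLinearMap.mul_apply',
    ContinuousLinearMap.inr_apply, innerSL_apply_apply, smul_eq_mul, map_zero, add_zero, zero_add]
  congr 2
  rw [mul_sub, neg_mul, mul_assoc]
  abel

theorem hasFDerivAt_ham (hQ : ContDiff ℝ ∞ Q) {t : ℝ} {x : A × ℍ[ℝ]} (h : Q (t, x.1) ≠ 0)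
    (ξ : A × ℍ[ℝ]) :
    fderiv ℝ (fun y => ham Q (t, y)) x ξ = dham Q (t, x) ξ.1 + 2 * ⟪bet Q (t, x.1), ξ.2⟫_ℝ := by
  have hb : HasFDerivAt (bet Q) (fderiv ℝ (bet Q) (t, x.1)) (t, x.1) :=
    ((contDiffAt_bet hQ h).differentiableAt (by simp)).hasFDerivAt
  have h1 : HasFDerivAt (fun y : A × ℍ[ℝ] => ((t, y.1) : ℝ × A))
      ((ContinuousLinearMap.inr ℝ ℝ A) ∘L (ContinuousLinearMap.fst ℝ A ℍ[ℝ])) x := by
    have := (hasFDerivAt_const t x).prodMk (hasFDerivAt_fst (𝕜 := ℝ) (p := x))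
    exact this
  have h2 : HasFDerivAt (fun y : A × ℍ[ℝ] => bet Q (t, y.1))
      ((fderiv ℝ (bet Q) (t, x.1)) ∘L
        ((ContinuousLinearMap.inr ℝ ℝ A) ∘L (ContinuousLinearMap.fst ℝ A ℍ[ℝ]))) x :=
    HasFDerivAt.comp (g := bet Q) x hb h1
  have h3 := (h2.inner ℝ (hasFDerivAt_snd (𝕜 := ℝ) (p := x))).const_mul 2
  have h4 : fderiv ℝ (fun y => ham Q (t, y)) x = _ := h3.fderiv
  rw [h4, dham_apply]
  simp [fderivInnerCLM_apply]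
  ring

end Deriv

/-! ### Norm and real part -/

omit [NormedAddCommGroup A] [NormedSpace ℝ A]

theorem normSq_conj {q u : ℍ[ℝ]} (h : q ≠ 0) : normSq (q * u * q⁻¹) = normSq u := by
  have hn : normSq q ≠ 0 := normSq_ne_zero.2 h
  rw [map_mul, map_mul, map_inv₀]
  field_simp

theorem re_conj {q u : ℍ[ℝ]} (h : q ≠ 0) : (q * u * q⁻¹).re = u.re := by
  have hre : ∀ x y : ℍ[ℝ], (x * y).re = (y * x).re := by
    intro x y
    simp only [Quaternion.re_mul]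
    ring
  rw [hre, ← mul_assoc, inv_mul_cancel₀ h, one_mul]

theorem rot_zero {Q : ℝ × A → ℍ[ℝ]} {x : A × ℍ[ℝ]} (h : Q (0, x.1) ≠ 0) : rot Q 0 x = x.2 := by
  have h1 := mul_inv_cancel₀ h
  calc rot Q 0 x = (Q (0, x.1) * (Q (0, x.1))⁻¹) * x.2 * (Q (0, x.1) * (Q (0, x.1))⁻¹) := by
        simp only [rot, mul_assoc]
    _ = x.2 := by rw [h1, one_mul, mul_one]

theorem normSq_rot {Q : ℝ × A → ℍ[ℝ]} {t : ℝ} {x : A × ℍ[ℝ]} (h0 : Q (0, x.1) ≠ 0)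
    (h : Q (t, x.1) ≠ 0) : normSq (rot Q t x) = normSq x.2 := by
  rw [rot, normSq_conj h]
  have := normSq_conj (q := (Q (0, x.1))⁻¹) (u := x.2) (inv_ne_zero h0)
  rwa [inv_inv] at this

theorem re_rot {Q : ℝ × A → ℍ[ℝ]} {t : ℝ} {x : A × ℍ[ℝ]} (h0 : Q (0, x.1) ≠ 0)
    (h : Q (t, x.1) ≠ 0) : (rot Q t x).re = x.2.re := by
  rw [rot, re_conj h]
  have := re_conj (q := (Q (0, x.1))⁻¹) (u := x.2) (inv_ne_zero h0)
  rwa [inv_inv] at this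

end Vale.Agent.P265.H766
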